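import Vale.Agent.N266.Sing

/-! P266: etale covers with a prescribed number of singular points. -/

namespace Vale.Agent.N266

open IsLocalRing Vale.Agent.P266 Polynomial

variable {A : Type} [CommRing A] [IsDomain A] [IsIntegrallyClosed A] [Algebra ℂ A]
  [Algebra.FiniteType ℂ A]

/-- A function equal to `1` at `m`, zero at the other singular points, with a simple zero. -/
theorem exists_fun (hd : ringKrullDim A ≤ 2) (m : Ideal A) [hm : m.IsPrime]
    (h : ¬ IsRegularLocalRing (Localization.AtPrime m)) :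
    ∃ f : A, f - 1 ∈ m ∧ (∀ (p : Ideal A) [p.IsPrime],
      ¬ IsRegularLocalRing (Localization.AtPrime p) → p ≠ m → f ∈ p) ∧
      ∃ n : Ideal A, n.IsPrime ∧ f ∈ n ∧ f ∉ n ^ 2 := by
  classical
  have : IsNoetherianRing A := Algebra.FiniteType.isNoetherianRing ℂ A
  have : IsJacobsonRing A := isJacobsonRing_of_finiteType (A := ℂ)
  have hmm := max_of_sing hd m h
  have hne : ∀ (p : Ideal A) [p.IsPrime], ¬ IsRegularLocalRing (Localization.AtPrime p) →
      p ≠ ⊥ := fun p _ hp e => by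
    have h1 := two_le_height p hp
    rw [e, Ideal.height_bot] at h1
    exact absurd h1 (by decide)
  let T := (finite_sing hd).toFinset.erase ⟨m, hm⟩
  have hT : ∀ p ∈ T, ¬ IsRegularLocalRing (Localization.AtPrime p.asIdeal) ∧ p.asIdeal ≠ m :=
    fun p hp => ⟨(Set.Finite.mem_toFinset _).1 (Finset.mem_of_mem_erase hp),
      fun e => Finset.ne_of_mem_erase hp (PrimeSpectrum.ext e)⟩
  let G : Ideal A := T.inf PrimeSpectrum.asIdeal
  have hG : ¬ G ≤ m := fun e => by
    obtain ⟨p, hp, hpm⟩ := hm.inf_le'.1 e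
    exact (hT p hp).2 ((max_of_sing hd _ (hT p hp).1).eq_of_le hm.ne_top hpm)
  obtain ⟨g₀, hg₀, hg₀m⟩ := SetLike.not_le_iff_exists.1 hG
  obtain ⟨y, i, hi, hy⟩ := hmm.exists_inv hg₀m
  have hJ : G ⊓ m ≠ ⊥ := fun e => by
    rcases Ideal.isPrime_bot.inf_le.1 e.le with h1 | h1
    · obtain ⟨p, hp, hpm⟩ := Ideal.isPrime_bot.inf_le'.1 h1
      exact hne _ (hT p hp).1 (le_bot_iff.1 hpm)
    · exact hne m h (le_bot_iff.1 h1)
  obtain ⟨n, hn, hJn⟩ : ∃ n : Ideal A, n.IsMaximal ∧ ¬ G ⊓ m ≤ n := by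
    by_contra hc
    refine hJ (le_bot_iff.1 (le_of_le_of_eq (le_sInf fun n hn => ?_)
      (IsJacobsonRing.out (R := A) inferInstance Ideal.isRadical_bot)))
    by_contra h1
    exact hc ⟨n, hn.2, h1⟩
  obtain ⟨a, ha, han⟩ := SetLike.not_le_iff_exists.1 hJn
  obtain ⟨c, b, hb, hab⟩ := Ideal.IsMaximal.exists_inv_pow n han 2
  obtain ⟨z, hz, hzn⟩ : ∃ z ∈ n, z ∉ n ^ 2 := by
    refine SetLike.not_le_iff_exists.1 fun h1 => ?_
    rcases (Ideal.isIdempotentElem_iff_eq_bot_or_top n (IsNoetherian.noetherian n)).1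
      (le_antisymm Ideal.mul_le_left (pow_two n ▸ h1)) with h2 | h2
    · exact hne m h ((hn.eq_of_le hm.ne_top (h2 ▸ bot_le)).symm.trans h2)
    · exact hn.ne_top h2
  refine ⟨c * a * z + b * (y * g₀), ?_, fun p _ hp hpm => ?_, n, hn.isPrime,
    add_mem (n.mul_mem_left _ hz) (n.mul_mem_right _ (Ideal.pow_le_self two_ne_zero hb)),
    fun h1 => hzn ?_⟩
  · have h1 : c * a * z + b * (y * g₀) - 1 = (c * z - c) * a - b * i := by
      linear_combination b * hy + hab
    rw [h1]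
    exact sub_mem (m.mul_mem_left _ ha.2) (m.mul_mem_left _ hi)
  · refine (Finset.inf_le (f := PrimeSpectrum.asIdeal) (b := ⟨p, ‹_›⟩) (Finset.mem_erase.2
      ⟨fun e => hpm (congrArg PrimeSpectrum.asIdeal e), (Set.Finite.mem_toFinset _).2 hp⟩) :
        G ≤ p) ?_
    exact add_mem (G.mul_mem_right _ (G.mul_mem_left _ ha.1))
      (G.mul_mem_left _ (G.mul_mem_left _ hg₀))
  · have h2 : z = c * a * z + b * (y * g₀) + b * (z - y * g₀) := by
      linear_combination (-z) * hab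
    rw [h2]
    exact add_mem h1 (Ideal.mul_mem_right _ _ hb)

/-- The cover `t ^ n = f` of the open set `f ≠ 0`. -/
noncomputable def cover (f : A) {n : ℕ} (hn : n ≠ 0) : StandardEtalePair A where
  f := X ^ n - C f
  monic_f := monic_X_pow_sub_C f hn
  g := C f
  cond := ⟨C (algebraMap ℂ A (n : ℂ)⁻¹) * X, -1, 1, by
    obtain ⟨n, rfl⟩ := Nat.exists_eq_succ_of_ne_zero hn
    have h : (C (algebraMap ℂ A ((n + 1 : ℕ) : ℂ)⁻¹) * ((n + 1 : ℕ) : A[X])) = 1 := by
      rw [← C_eq_natCast, ← C_mul, ← map_natCast (algebraMap ℂ A), ← map_mul,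
        inv_mul_cancel₀ (Nat.cast_ne_zero.2 hn), map_one, C_1]
    rw [derivative_sub, derivative_C, derivative_X_pow, C_eq_natCast, Nat.succ_sub_one,
      Nat.succ_eq_add_one]
    linear_combination X ^ (n + 1) * h⟩

omit [Algebra.FiniteType ℂ A] in
theorem cover_domain (f : A) {n : ℕ} (hn : n ≠ 0) (q : Ideal A) (hq : q.IsPrime) (h1 : f ∈ q)
    (h2 : f ∉ q ^ 2) : IsDomain (cover f hn).Ring := by
  have hm := monic_X_pow_sub_C f hn
  have hdeg : (X ^ n - C f).natDegree = n := natDegree_X_pow_sub_C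
  have hE : (X ^ n - C f).IsEisensteinAt q := by
    refine ⟨by rw [hm.leadingCoeff]; exact (Ideal.ne_top_iff_one _).1 hq.ne_top, fun {i} hi => ?_,
      by simpa [hn.symm] using h2⟩
    rw [hdeg] at hi
    rw [coeff_sub, coeff_X_pow, if_neg hi.ne, coeff_C, zero_sub, neg_mem_iff]
    split_ifs
    exacts [h1, q.zero_mem]
  have hirr := (hm.irreducible_iff_irreducible_map_fraction_map (K := FractionRing A)).1
    (hE.irreducible hq hm.isPrimitive (hdeg.symm ▸ Nat.pos_of_ne_zero hn))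
  have hp : Prime (X ^ n - C f) := by
    refine ⟨hm.ne_zero, fun h => hirr.not_isUnit (h.map (mapRingHom _)), fun a b h => ?_⟩
    simp only [← map_dvd_map _ (IsFractionRing.injective A (FractionRing A)) hm,
      Polynomial.map_mul] at h ⊢
    exact hirr.prime.dvd_or_dvd h
  have := AdjoinRoot.isDomain_of_prime hp
  have h0 : AdjoinRoot.mk (X ^ n - C f) (C f) ≠ 0 :=
    AdjoinRoot.mk_ne_zero_of_natDegree_lt hm (C_ne_zero.2 fun e => h2 (e ▸ zero_mem _))
      (by rw [hdeg, natDegree_C]; exact Nat.pos_of_ne_zero hn)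
  have h3 : IsDomain (Localization.Away (AdjoinRoot.mk (X ^ n - C f) (C f))) :=
    IsLocalization.isDomain_localization (powers_le_nonZeroDivisors_of_noZeroDivisors h0)
  exact @MulEquiv.isDomain _ _ _ _ h3 (cover f hn).equivAwayAdjoinRoot.toMulEquiv

omit [IsDomain A] [IsIntegrallyClosed A] [Algebra.FiniteType ℂ A] in
theorem cover_card (f : A) {n : ℕ} (hn : n ≠ 0) (m : Ideal A) [m.IsMaximal] (h : f - 1 ∈ m) :
    {q : PrimeSpectrum (cover f hn).Ring | q.asIdeal.under A = m}.ncard = n := by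
  set P := cover f hn
  let _ : Field (A ⧸ m) := Ideal.Quotient.field m
  have hζ := Complex.isPrimitiveRoot_exp n hn
  have hf : algebraMap A (A ⧸ m) f = 1 := Ideal.Quotient.eq.2 h
  have hmap : ∀ ζ : nthRootsFinset n (1 : ℂ), P.HasMap (algebraMap ℂ (A ⧸ m) ζ) := fun ζ => by
    have h1 := (mem_nthRootsFinset (Nat.pos_of_ne_zero hn) _).1 ζ.2
    constructor
    · simp only [P, cover, map_sub, map_pow, aeval_X, aeval_C, hf]
      rw [← map_pow, h1, map_one, sub_self]
    · simp only [P, cover, aeval_C, hf, isUnit_one]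
  let F : nthRootsFinset n (1 : ℂ) → PrimeSpectrum P.Ring := fun ζ =>
    ⟨RingHom.ker (P.lift _ (hmap ζ)), RingHom.ker_isPrime _⟩
  have hF : Function.Injective F := fun ζ ξ e => by
    have h1 : P.X - algebraMap A _ (algebraMap ℂ A ζ) ∈ (F ζ).asIdeal := by
      rw [RingHom.mem_ker, map_sub, AlgHom.commutes, P.lift_X, sub_eq_zero]
      rfl
    rw [e, RingHom.mem_ker, map_sub, AlgHom.commutes, P.lift_X, sub_eq_zero] at h1
    exact Subtype.ext ((algebraMap ℂ (A ⧸ m)).injective h1).symm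
  have hR : {q : PrimeSpectrum P.Ring | q.asIdeal.under A = m} = Set.range F := by
    refine Set.Subset.antisymm (fun q hq => ?_) ?_
    · have hq' : ∀ a ∈ m, algebraMap A (P.Ring ⧸ q.asIdeal) a = 0 := fun a ha =>
        Ideal.Quotient.eq_zero_iff_mem.2 (hq.ge ha)
      let ι : (A ⧸ m) →ₐ[A] P.Ring ⧸ q.asIdeal := Ideal.Quotient.liftₐ m (Algebra.ofId _ _) hq'
      let x := Ideal.Quotient.mkₐ A q.asIdeal P.X
      let c : ℂ →+* P.Ring ⧸ q.asIdeal := (ι : _ →+* _).comp (algebraMap ℂ (A ⧸ m))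
      have h1 : x ^ n - 1 = 0 := by
        have h2 : aeval x (X ^ n - C f) = 0 := (P.hasMap_X.map (Ideal.Quotient.mkₐ A q.asIdeal)).1
        rwa [map_sub, map_pow, aeval_X, aeval_C, ← ι.commutes, hf, map_one] at h2
      have h2 := congrArg (eval₂RingHom c x) (X_pow_sub_one_eq_prod (Nat.pos_of_ne_zero hn) hζ)
      simp only [map_sub, map_pow, map_one, map_prod, coe_eval₂RingHom, eval₂_X, eval₂_C, h1] at h2
      obtain ⟨ζ, hζ, h3⟩ := Finset.prod_eq_zero_iff.1 h2.symm
      have h4 : ι.comp (P.lift _ (hmap ⟨ζ, hζ⟩)) = Ideal.Quotient.mkₐ A q.asIdeal :=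
        StandardEtalePair.hom_ext (by
          rw [AlgHom.comp_apply, P.lift_X]
          exact (sub_eq_zero.1 h3).symm)
      refine ⟨⟨ζ, hζ⟩, PrimeSpectrum.ext (Ideal.ext fun b => ?_)⟩
      rw [RingHom.mem_ker, ← Ideal.Quotient.eq_zero_iff_mem, ← Ideal.Quotient.mkₐ_eq_mk A, ← h4,
        AlgHom.comp_apply, map_eq_zero ι]
    · rintro _ ⟨ζ, rfl⟩
      ext a
      rw [Ideal.mem_comap, RingHom.mem_ker, AlgHom.commutes]
      exact Ideal.Quotient.eq_zero_iff_mem
  rw [hR, Set.ncard_range_of_injective hF, Nat.card_eq_finsetCard, hζ.card_nthRootsFinset]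

theorem count {n : ℕ} (hn : n ≠ 0) :
    ∃ (A : Type) (_ : CommRing A) (_ : IsDomain A) (_ : Algebra ℂ A),
      Algebra.FiniteType ℂ A ∧ IsIntegrallyClosed A ∧ ringKrullDim A = 2 ∧
      Module.Free A (Derivation ℂ A A) ∧ Module.finrank A (Derivation ℂ A A) = 2 ∧
      {p : PrimeSpectrum A | ¬ IsRegularLocalRing (Localization.AtPrime p.asIdeal)}.ncard = n := by
  obtain ⟨A, _, _, _, _, _, hd, _, hr, hreg, -⟩ := H114.ex_two
  have : IsNoetherianRing A := Algebra.FiniteType.isNoetherianRing ℂ A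
  obtain ⟨m, hm, h⟩ : ∃ (m : Ideal A) (_ : m.IsPrime),
      ¬ IsRegularLocalRing (Localization.AtPrime m) := by
    by_contra hc
    exact hreg (isRegularRing_iff.2 fun p hp => not_not.1 fun h => hc ⟨p, hp, h⟩)
  have := max_of_sing hd.le m h
  obtain ⟨f, h1, h2, q, hq, h3, h4⟩ := exists_fun hd.le m h
  let B := (cover f hn).Ring
  have : IsDomain B := cover_domain f hn q hq h3 h4
  let _ : Algebra ℂ B := ((algebraMap A B).comp (algebraMap ℂ A)).toAlgebra
  have : IsScalarTower ℂ A B := IsScalarTower.of_algebraMap_eq fun _ => rfl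
  have hB : Algebra.FiniteType ℂ B := Algebra.FiniteType.trans (S := A) ‹_› inferInstance
  have : IsNoetherianRing B := Algebra.FiniteType.isNoetherianRing ℂ B
  obtain ⟨h5, h6⟩ := der_free (T := B) hr Ext.of_etale
  have h7 := H114.Lip.isIntegrallyClosed_of_projective ℂ B
  have h8 : {p : PrimeSpectrum B | ¬ IsRegularLocalRing (Localization.AtPrime p.asIdeal)}.ncard
      = n := by
    refine (congrArg _ (Set.ext fun p => ⟨fun hp => ?_, fun hp => ?_⟩)).trans
      (cover_card f hn m h1)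
    · by_contra hpm
      have h9 := h2 _ (mt (reg_etale (p.asIdeal.under A) p.asIdeal).1.2 hp) hpm
      refine p.2.ne_top (Ideal.eq_top_of_isUnit_mem _ h9 ?_)
      have h10 : IsUnit (aeval (cover f hn).X (C f)) := (cover f hn).hasMap_X.2
      rwa [aeval_C] at h10
    · have : p.asIdeal.LiesOver m := ⟨hp.symm⟩
      exact mt (reg_etale m p.asIdeal).1.1 h
  refine ⟨B, inferInstance, ‹_›, inferInstance, hB, h7, le_antisymm ?_ ?_, h5, h6, h8⟩
  · refine (ringKrullDim_le_iff_height_le _).2 fun p _ => ?_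
    rw [(reg_etale (p.under A) p).2]
    exact Ideal.height_le_ringKrullDim_of_isPrime.trans hd.le
  · obtain ⟨p, hp⟩ := Set.nonempty_of_ncard_ne_zero (h8 ▸ hn)
    exact (two_le_height p.asIdeal hp).trans Ideal.height_le_ringKrullDim_of_isPrime

end Vale.Agent.N266
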