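import Vale.Agent.P266.H114.Main

/-! P266: flat extensions: regularity, dimension, and derivations. -/

namespace Vale.Agent.N266

open IsLocalRing Vale.Agent.P266

section Local

variable {R S : Type*} [CommRing R] [CommRing S] [IsLocalRing R] [IsLocalRing S]
  [IsNoetherianRing R] [IsNoetherianRing S] [Algebra R S] [Module.Flat R S]
  (h : (maximalIdeal R).map (algebraMap R S) = maximalIdeal S)

include h

omit [IsNoetherianRing R] [IsNoetherianRing S] [Module.Flat R S] in
theorem localHom : IsLocalHom (algebraMap R S) :=
  ((local_hom_TFAE (algebraMap R S)).out 0 2).2 h.le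

theorem dim_eq : ringKrullDim S = ringKrullDim R := by
  have := localHom h
  have h1 := Ideal.height_eq_height_add_of_liesOver_of_hasGoingDown (maximalIdeal R)
    (maximalIdeal S)
  rw [h, Ideal.map_quotient_self, Ideal.height_bot, add_zero] at h1
  rw [← maximalIdeal_height_eq_ringKrullDim, ← maximalIdeal_height_eq_ringKrullDim, h1]

theorem span_eq : (maximalIdeal S).spanFinrank = (maximalIdeal R).spanFinrank := by
  have := localHom h
  have : Module.FaithfullyFlat R S := Module.FaithfullyFlat.of_flat_of_isLocalHom
  refine le_antisymm (h ▸ Ideal.spanFinrank_map_le_of_fg _ (IsNoetherian.noetherian _)) ?_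
  obtain ⟨t, htS, htfin, htcard, htspan⟩ := H114.exists_subset_generators S
    (algebraMap R S '' (maximalIdeal R : Set R)) h
  obtain ⟨g, -, hg⟩ := Set.SurjOn.exists_bijOn_subset (f := algebraMap R S)
    (s := (maximalIdeal R : Set R)) (t := t) htS
  have hgfin : g.Finite := by
    rw [← Set.finite_image_iff hg.injOn, hg.image_eq]
    exact htfin
  have h1 : (Ideal.span g).map (algebraMap R S) = (maximalIdeal R).map (algebraMap R S) := by
    rw [Ideal.map_span, hg.image_eq, htspan, h]
  rw [← Ideal.map_injective_of_faithfullyFlat (B := S) h1]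
  refine (Submodule.spanFinrank_span_le_ncard_of_finite hgfin).trans (le_of_eq_of_le ?_ htcard)
  rw [← hg.image_eq, hg.injOn.ncard_image]

theorem reg_iff : IsRegularLocalRing S ↔ IsRegularLocalRing R := by
  rw [isRegularLocalRing_iff, isRegularLocalRing_iff, dim_eq h, span_eq h]

end Local

/-- A flat local algebra `T` over `A` whose maximal ideal is generated by the prime below. -/
theorem reg_iff' {A T : Type*} [CommRing A] [CommRing T] [IsLocalRing T] [IsNoetherianRing A]
    [IsNoetherianRing T] [Algebra A T] [Module.Flat A T] (p : Ideal A) [p.IsPrime]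
    (h1 : (maximalIdeal T).comap (algebraMap A T) = p)
    (h2 : p.map (algebraMap A T) = maximalIdeal T) :
    (IsRegularLocalRing T ↔ IsRegularLocalRing (Localization.AtPrime p)) ∧
      ringKrullDim T = p.height := by
  have hu : ∀ y : p.primeCompl, IsUnit (algebraMap A T y) := fun y => by
    by_contra hy
    exact y.2 (h1 ▸ (mem_maximalIdeal _).2 hy)
  let _ : Algebra (Localization.AtPrime p) T := (IsLocalization.lift hu).toAlgebra
  have : IsScalarTower A (Localization.AtPrime p) T :=
    IsScalarTower.of_algebraMap_eq fun a => (IsLocalization.lift_eq hu a).symm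
  have : Module.Flat (Localization.AtPrime p) T :=
    (Module.flat_iff_of_isLocalization (Localization.AtPrime p) p.primeCompl T).2 inferInstance
  have h : (maximalIdeal (Localization.AtPrime p)).map (algebraMap _ T) = maximalIdeal T := by
    rw [← Localization.AtPrime.map_eq_maximalIdeal, Ideal.map_map, ← IsScalarTower.algebraMap_eq,
      h2]
  exact ⟨reg_iff h, (dim_eq h).trans (IsLocalization.AtPrime.ringKrullDim_eq_height p _)⟩

/-- Regularity and height at a prime are invariant under etale extensions. -/
theorem reg_etale {A B : Type*} [CommRing A] [CommRing B] [IsNoetherianRing A] [Algebra A B]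
    [Algebra.Etale A B] (p : Ideal A) (q : Ideal B) [p.IsPrime] [q.IsPrime] [q.LiesOver p] :
    (IsRegularLocalRing (Localization.AtPrime q) ↔ IsRegularLocalRing (Localization.AtPrime p)) ∧
      (q.height : WithBot ℕ∞) = p.height := by
  have : IsNoetherianRing B := Algebra.FiniteType.isNoetherianRing A B
  let _ := Localization.AtPrime.algebraOfLiesOver p q
  have h := ((Algebra.isUnramifiedAt_iff_map_eq A p q).1 inferInstance).2
  rw [← IsLocalization.AtPrime.ringKrullDim_eq_height q (Localization.AtPrime q)]
  refine reg_iff' p ?_ h
  rw [IsScalarTower.algebraMap_eq A B (Localization.AtPrime q), ← Ideal.comap_comap, q.over_def p]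
  exact congrArg (Ideal.comap _) Localization.AtPrime.under_maximalIdeal

section Der

variable {k A T : Type*} [Field k] [CommRing A] [CommRing T] [Algebra k A] [Algebra k T]
  [Algebra A T] [IsScalarTower k A T]

/-- Derivations extend uniquely from `A` to `T`. -/
structure Ext (k A T : Type*) [Field k] [CommRing A] [CommRing T] [Algebra k A] [Algebra k T]
    [Algebra A T] : Prop where
  ext : ∀ D : Derivation k A A, ∃ E : Derivation k T T,
    ∀ a, E (algebraMap A T a) = algebraMap A T (D a)
  uniq : ∀ E : Derivation k T T, (∀ a, E (algebraMap A T a) = 0) → E = 0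

theorem Ext.of_etale [Algebra.FormallyEtale A T] : Ext k A T :=
  ⟨fun D => exists_der_ext k ((Algebra.linearMap A T).compDer D),
    fun E h => der_eq_zero_of_unramified E h⟩

theorem der_free [IsDomain A] [Algebra.FiniteType k A] [Module.Flat A T] [Nontrivial T]
    [Module.Free A (Derivation k A A)] (hr : Module.finrank A (Derivation k A A) = 2)
    (H : Ext k A T) :
    Module.Free T (Derivation k T T) ∧ Module.finrank T (Derivation k T T) = 2 := by
  have hN : IsNoetherianRing A := Algebra.FiniteType.isNoetherianRing k A
  have := H114.Lip.finite_derivation k A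
  let b := Module.finBasisOfFinrankEq A (Derivation k A A) hr
  choose E hE using fun i => H.ext (b i)
  have hb := Fintype.linearIndependent_iff.1 b.linearIndependent
  have hli : LinearIndependent T E := by
    obtain ⟨x, hx⟩ : ∃ x, b 0 x ≠ 0 := by
      by_contra hc
      exact b.ne_zero 0 (Derivation.ext fun x => not_not.1 fun h => hc ⟨x, h⟩)
    obtain ⟨y, hy⟩ : ∃ y, b 0 x * b 1 y - b 1 x * b 0 y ≠ 0 := by
      by_contra hc
      refine hx (hb ![-b 1 x, b 0 x] (Derivation.ext fun y => ?_) 1)
      have h1 : b 0 x * b 1 y - b 1 x * b 0 y = 0 := not_not.1 fun h => hc ⟨y, h⟩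
      simp only [Fin.sum_univ_two, Matrix.cons_val_zero, Matrix.cons_val_one,
        Derivation.add_apply, Derivation.smul_apply, smul_eq_mul, Derivation.zero_apply]
      linear_combination h1
    have hreg : IsSMulRegular T (b 0 x * b 1 y - b 1 x * b 0 y) :=
      Module.Flat.isSMulRegular_of_nonZeroDivisors (mem_nonZeroDivisors_of_ne_zero hy)
    refine Fintype.linearIndependent_iff.2 fun g hg => ?_
    have h1 := congrArg (fun D : Derivation k T T => D (algebraMap A T x)) hg
    have h2 := congrArg (fun D : Derivation k T T => D (algebraMap A T y)) hg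
    simp only [Fin.sum_univ_two, Derivation.add_apply, Derivation.smul_apply, smul_eq_mul, hE,
      Derivation.zero_apply] at h1 h2
    refine Fin.forall_fin_two.2 ⟨hreg.right_eq_zero_of_smul ?_, hreg.right_eq_zero_of_smul ?_⟩
    · rw [Algebra.smul_def, map_sub, map_mul, map_mul]
      linear_combination algebraMap A T (b 1 y) * h1 - algebraMap A T (b 1 x) * h2
    · rw [Algebra.smul_def, map_sub, map_mul, map_mul]
      linear_combination algebraMap A T (b 0 x) * h2 - algebraMap A T (b 0 y) * h1
  have hsp : ⊤ ≤ Submodule.span T (Set.range E) := by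
    intro F _
    have : Algebra.FinitePresentation k A := Algebra.FinitePresentation.of_finiteType.1 ‹_›
    obtain ⟨n, h₂, h₃, h⟩ := Module.Flat.exists_factorization_of_finitePresentation
      ((F.compAlgebraMap A).liftKaehlerDifferential)
    let φ : Fin n → Derivation k A A := fun j =>
      (Finsupp.lapply j ∘ₗ h₂).compDer (KaehlerDifferential.D k A)
    have h1 : F = ∑ i, (∑ j, algebraMap A T (b.repr (φ j) i) * h₃ (Finsupp.single j 1)) • E i := by
      rw [← sub_eq_zero]
      refine H.uniq _ fun a => ?_
      have h2 : F (algebraMap A T a) = h₃ (h₂ (KaehlerDifferential.D k A a)) := by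
        have h3 := LinearMap.congr_fun h (KaehlerDifferential.D k A a)
        rwa [Derivation.liftKaehlerDifferential_comp_D] at h3
      have h4 : h₂ (KaehlerDifferential.D k A a) = ∑ j, φ j a • Finsupp.single j 1 := by
        ext j
        simp [φ]
      have h5 : ∀ j, φ j a = ∑ i, b.repr (φ j) i * b i a := fun j => by
        conv_lhs => rw [← b.sum_repr (φ j)]
        exact H114.Lip.der_sum_smul_apply _ _ _ a
      rw [Derivation.sub_apply, H114.Lip.der_sum_smul_apply, h2, h4, map_sum, sub_eq_zero]
      simp only [hE, map_smul, h5, Algebra.smul_def, map_sum, map_mul, Finset.sum_mul]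
      rw [Finset.sum_comm]
      exact Finset.sum_congr rfl fun i _ => Finset.sum_congr rfl fun j _ => by ring
    rw [h1]
    exact Submodule.sum_mem _ fun i _ => Submodule.smul_mem _ _ (Submodule.subset_span ⟨i, rfl⟩)
  exact ⟨Module.Free.of_basis (Module.Basis.mk hli hsp), by
    simpa using Module.finrank_eq_card_basis (Module.Basis.mk hli hsp)⟩

end Der

end Vale.Agent.N266
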