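import Vale.Agent.N266.Red

/-! P266: the formal germ of an affine variety at a closed point. -/

namespace Vale.Agent.N266

open IsLocalRing Vale.Agent.P266

theorem exists_point {A : Type*} [CommRing A] [Algebra ℂ A] [Algebra.FiniteType ℂ A]
    (m : Ideal A) [m.IsMaximal] (a : A) : ∃ c : ℂ, a - algebraMap ℂ A c ∈ m := by
  let _ : Field (A ⧸ m) := Ideal.Quotient.field m
  have : Module.Finite ℂ (A ⧸ m) := finite_of_finite_type_of_isJacobsonRing ℂ (A ⧸ m)
  obtain ⟨c, hc⟩ := (IsAlgClosed.algebraMap_bijective_of_isIntegral (k := ℂ) (K := A ⧸ m)).2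
    (Ideal.Quotient.mk m a)
  exact ⟨c, Ideal.Quotient.eq.1 hc.symm⟩

open MvPolynomial in
/-- Translate coordinates so that they vanish at a given point. -/
theorem exists_shift {A : Type*} [CommRing A] [Algebra ℂ A] [Algebra.FiniteType ℂ A]
    (m : Ideal A) [m.IsMaximal] {n : ℕ} (g : MvPolynomial (Fin n) ℂ →ₐ[ℂ] A) :
    ∃ e : MvPolynomial (Fin n) ℂ ≃ₐ[ℂ] MvPolynomial (Fin n) ℂ, ∀ i, g (e (X i)) ∈ m := by
  choose c hc using fun i => exists_point m (g (X i))
  refine ⟨AlgEquiv.ofAlgHom (aeval fun i => X i - C (c i)) (aeval fun i => X i + C (c i))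
    (by ext i : 1; simp) (by ext i : 1; simp), fun i => ?_⟩
  simpa using hc i

open MvPowerSeries in
theorem germ {A : Type*} [CommRing A] [IsDomain A] [Algebra ℂ A] [Algebra.FiniteType ℂ A]
    [Module.Free A (Derivation ℂ A A)] (hr : Module.finrank A (Derivation ℂ A A) = 2)
    (m : Ideal A) [hm : m.IsMaximal] :
    ∃ (N : ℕ) (I : Ideal (MvPowerSeries (Fin N) ℂ)), I.IsRadical ∧
      ringKrullDim (MvPowerSeries (Fin N) ℂ ⧸ I) = m.height ∧
      Module.Free (MvPowerSeries (Fin N) ℂ ⧸ I)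
        (Derivation ℂ (MvPowerSeries (Fin N) ℂ ⧸ I) (MvPowerSeries (Fin N) ℂ ⧸ I)) ∧
      Module.finrank (MvPowerSeries (Fin N) ℂ ⧸ I)
        (Derivation ℂ (MvPowerSeries (Fin N) ℂ ⧸ I) (MvPowerSeries (Fin N) ℂ ⧸ I)) = 2 ∧
      (IsRegularLocalRing (MvPowerSeries (Fin N) ℂ ⧸ I) ↔
        IsRegularLocalRing (Localization.AtPrime m)) := by
  have hN : IsNoetherianRing A := Algebra.FiniteType.isNoetherianRing ℂ A
  obtain ⟨N, π, hπ, hπm⟩ : ∃ (N : ℕ) (π : MvPolynomial (Fin N) ℂ →ₐ[ℂ] A),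
      Function.Surjective π ∧ ∀ i, π (MvPolynomial.X i) ∈ m := by
    obtain ⟨N, π, hπ⟩ := Algebra.FiniteType.iff_quotient_mvPolynomial''.1 ‹Algebra.FiniteType ℂ A›
    obtain ⟨e, he⟩ := exists_shift m π
    exact ⟨N, π.comp e, hπ.comp e.surjective, he⟩
  obtain ⟨s, g, hg, hgf, hgm⟩ : ∃ (s : ℕ) (g : MvPolynomial (Fin s) ℂ →ₐ[ℂ] A),
      Function.Injective g ∧ g.Finite ∧ ∀ i, g (MvPolynomial.X i) ∈ m := by
    obtain ⟨s, g, hg, hgf⟩ := exists_finite_inj_algHom_of_fg ℂ A
    obtain ⟨e, he⟩ := exists_shift m g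
    exact ⟨s, g.comp e, hg.comp e.injective, hgf.comp (AlgHom.Finite.of_surjective _ e.surjective),
      he⟩
  set S := MvPolynomial (Fin N) ℂ
  set P := MvPowerSeries (Fin N) ℂ
  have hker : ∀ p : S, π p ∈ m ↔ MvPolynomial.constantCoeff p = 0 := fun p => by
    have h1 : π (p - MvPolynomial.C (MvPolynomial.constantCoeff p)) ∈ m := by
      have h2 : MvPolynomial.idealOfVars (Fin N) ℂ ≤ m.comap π :=
        Ideal.span_le.2 (Set.range_subset_iff.2 hπm)
      refine h2 (pow_one (MvPolynomial.idealOfVars (Fin N) ℂ) ▸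
        (MvPolynomial.mem_pow_idealOfVars_iff' 1 _).2 fun x hx => ?_)
      obtain rfl : x = 0 := (Finsupp.degree_eq_zero_iff x).1 (by simpa using hx)
      simp [MvPolynomial.constantCoeff_eq, S]
    refine ⟨fun h => ?_, fun h => by simpa [h] using h1⟩
    by_contra hc
    have h2 := sub_mem h h1
    rw [map_sub, sub_sub_cancel, ← MvPolynomial.algebraMap_eq, AlgHom.commutes] at h2
    exact hm.ne_top (Ideal.eq_top_of_isUnit_mem _ h2 ((IsUnit.mk0 _ hc).map _))
  let I₀ := RingHom.ker π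
  let I : Ideal P := I₀.map (algebraMap S P)
  have hI : I ≤ RingHom.ker (constantCoeff : P →+* ℂ) :=
    Ideal.map_le_iff_le_comap.2 fun p hp => (hker p).1 (by
      rw [RingHom.mem_ker.1 hp]; exact m.zero_mem)
  have : Nontrivial (P ⧸ I) := Ideal.Quotient.nontrivial_iff.2
    (ne_top_of_le_ne_top (RingHom.ker_ne_top _) hI)
  have : IsLocalRing (P ⧸ I) := IsLocalRing.of_surjective' _ Ideal.Quotient.mk_surjective
  let e := Ideal.quotientKerAlgEquivOfSurjective hπ
  let _ : Algebra A (P ⧸ I) := ((algebraMap (S ⧸ I₀) (P ⧸ I)).comp e.symm).toAlgebra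
  have hA : ∀ p, algebraMap A (P ⧸ I) (π p) = Ideal.Quotient.mk I p := fun p =>
    congrArg (algebraMap (S ⧸ I₀) (P ⧸ I)) (e.symm_apply_apply (Ideal.Quotient.mk I₀ p))
  have : IsScalarTower ℂ A (P ⧸ I) := IsScalarTower.of_algebraMap_eq fun c => by
    rw [← π.commutes, hA, MvPolynomial.algebraMap_eq, MvPolynomial.coe_C]
    rfl
  have : Module.Flat A (P ⧸ I) := by
    have := flat_ps N ℂ
    have h1 : Module.Flat (S ⧸ I₀) (P ⧸ I) := Module.Flat.of_linearEquiv
      (Algebra.TensorProduct.quotIdealMapEquivQuotTensor P I₀).toLinearEquiv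
    exact RingHom.Flat.comp (RingHom.Flat.of_bijective e.symm.bijective)
      (RingHom.flat_algebraMap_iff.2 h1)
  have hmax : ∀ f : P, Ideal.Quotient.mk I f ∈ maximalIdeal (P ⧸ I) ↔ constantCoeff f = 0 :=
    fun f => by
    have := IsLocalHom.of_surjective _ (Ideal.Quotient.mk_surjective (I := I))
    rw [mem_maximalIdeal, mem_nonunits_iff, isUnit_map_iff, isUnit_iff_constantCoeff,
      isUnit_iff_ne_zero, not_not]
  have h1 : (maximalIdeal (P ⧸ I)).comap (algebraMap A (P ⧸ I)) = m := by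
    ext a
    obtain ⟨p, rfl⟩ := hπ a
    rw [Ideal.mem_comap, hA, hmax, hker]
    rfl
  have h2 : m.map (algebraMap A (P ⧸ I)) = maximalIdeal (P ⧸ I) := by
    refine le_antisymm (Ideal.map_le_iff_le_comap.2 h1.ge) fun t ht => ?_
    obtain ⟨f, rfl⟩ := Ideal.Quotient.mk_surjective t
    refine (Ideal.span_le.2 (Set.range_subset_iff.2 fun i => ?_) :
      _ ≤ (m.map (algebraMap A (P ⧸ I))).comap (Ideal.Quotient.mk I)) (mem_span_X f ((hmax f).1 ht))
    rw [SetLike.mem_coe, Ideal.mem_comap, ← MvPolynomial.coe_X, ← hA]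
    exact Ideal.mem_map_of_mem _ (hπm i)
  have h3 : ∀ t : P ⧸ I, ∃ a : A, t - algebraMap A _ a ∈ maximalIdeal (P ⧸ I) := fun t => by
    obtain ⟨f, rfl⟩ := Ideal.Quotient.mk_surjective t
    refine ⟨π (MvPolynomial.C (constantCoeff f)), ?_⟩
    rw [hA, ← map_sub, hmax]
    simp [P]
  have hE : Ext ℂ A (P ⧸ I) := by
    refine ⟨fun D => ?_, der_uniq m h2 h3⟩
    choose q hq using fun i => hπ (D (π (MvPolynomial.X i)))
    let E : Derivation ℂ P P := ∑ i, (q i : P) • pderiv ℂ i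
    have h4 : ∀ p : S, Ideal.Quotient.mk I (E p) = algebraMap A _ (D (π p)) := fun p => by
      have h5 : π = MvPolynomial.aeval fun i => π (MvPolynomial.X i) := MvPolynomial.aeval_unique π
      conv_rhs => rw [h5, H114.Lip.der_aeval_mv, ← h5]
      rw [H114.Lip.der_sum_smul_apply, map_sum, map_sum]
      refine Finset.sum_congr rfl fun i _ => ?_
      rw [pderiv_coe, map_mul, map_mul, ← hq, hA, hA, mul_comm]
    have h5 : ∀ x, Ideal.Quotient.mkₐ ℂ I x = 0 → Ideal.Quotient.mkₐ ℂ I (E x) = 0 := by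
      intro x hx
      replace hx : x ∈ I := Ideal.Quotient.eq_zero_iff_mem.1 hx
      induction hx using Submodule.span_induction with
      | mem x hx =>
        obtain ⟨p, hp, rfl⟩ := hx
        exact (h4 p).trans (by rw [RingHom.mem_ker.1 hp, map_zero, map_zero])
      | zero => simp
      | add x y _ _ hx hy => rw [map_add, map_add, hx, hy, add_zero]
      | smul c x hx' hx =>
        have h6 : Ideal.Quotient.mkₐ ℂ I x = 0 := Ideal.Quotient.eq_zero_iff_mem.2 hx'
        rw [smul_eq_mul, E.leibniz, smul_eq_mul, smul_eq_mul, map_add, map_mul, map_mul, hx, h6,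
          mul_zero, zero_mul, add_zero]
    refine ⟨Derivation.liftOfSurjective (Ideal.Quotient.mkₐ_surjective ℂ I) h5, fun a => ?_⟩
    obtain ⟨p, rfl⟩ := hπ a
    rw [hA, ← h4]
    exact Derivation.liftOfSurjective_apply _ h5 _
  have hred : IsReduced (P ⧸ I) := by
    choose y hy using fun i => hπ (g (MvPolynomial.X i))
    have hs : HasSubst fun i => (y i : P) :=
      hasSubst_of_constantCoeff_zero fun i => (hker _).1 (hy i ▸ hgm i)
    let _ := g.toRingHom.toAlgebra
    have : Module.Finite (MvPolynomial (Fin s) ℂ) A := hgf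
    have : FaithfulSMul (MvPolynomial (Fin s) ℂ) A :=
      (faithfulSMul_iff_algebraMap_injective _ _).2 hg
    let σ := (Ideal.Quotient.mkₐ ℂ I).comp (substAlgHom (R := ℂ) hs)
    let _ := σ.toRingHom.toAlgebra
    let _ := ((algebraMap A (P ⧸ I)).comp g.toRingHom).toAlgebra
    have : IsScalarTower (MvPolynomial (Fin s) ℂ) A (P ⧸ I) :=
      IsScalarTower.of_algebraMap_eq fun _ => rfl
    have : IsScalarTower (MvPolynomial (Fin s) ℂ) (MvPowerSeries (Fin s) ℂ) (P ⧸ I) := by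
      refine IsScalarTower.of_algebraMap_eq fun p => ?_
      have h4 : (IsScalarTower.toAlgHom ℂ A (P ⧸ I)).comp g =
          (Ideal.Quotient.mkₐ ℂ I).comp (MvPolynomial.aeval fun i => (y i : P)) := by
        ext i : 1
        simp [← hy, hA]
      exact (AlgHom.congr_fun h4 p).trans
        (congrArg (Ideal.Quotient.mk I) (substAlgHom_coe hs p).symm)
    exact reduced_of (k := ℂ) (s := s) m h1 h2 h3 hgm
  obtain ⟨h4, h5⟩ := reg_iff' m h1 h2
  obtain ⟨h6, h7⟩ := der_free hr hE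
  exact ⟨N, I, (Ideal.isRadical_iff_quotient_reduced I).2 hred, h5, h6, h7, h4⟩

end Vale.Agent.N266
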