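import Vale.Agent.N266.Gen

/-! P266: a flat local algebra over an affine domain that receives a power series ring of a
Noether normalization is reduced. -/

namespace Vale.Agent.N266

open IsLocalRing TensorProduct

theorem approx {A M : Type*} [CommRing A] [AddCommGroup M] [Module A M] (m : Ideal A)
    (N : Submodule A M) (h : ⊤ ≤ N ⊔ m • ⊤) (n : ℕ) : ⊤ ≤ N ⊔ m ^ n • ⊤ := by
  induction n with
  | zero => simp
  | succ n ih =>
    refine ih.trans (sup_le le_sup_left ((Submodule.smul_mono le_rfl h).trans ?_))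
    rw [Submodule.smul_sup, ← Submodule.mul_smul, ← pow_succ]
    exact sup_le_sup_right Submodule.smul_le_right _

theorem approx' {A B : Type*} [CommRing A] [CommRing B] [Algebra A B] (m : Ideal A)
    (h : ∀ b : B, ∃ a : A, b - algebraMap A B a ∈ m.map (algebraMap A B)) (n : ℕ) (b : B) :
    ∃ a : A, b - algebraMap A B a ∈ m.map (algebraMap A B) ^ n := by
  have h1 : ⊤ ≤ LinearMap.range (Algebra.linearMap A B) ⊔ m • ⊤ := fun b _ => by
    obtain ⟨a, ha⟩ := h b
    rw [Ideal.smul_top_eq_map]
    exact Submodule.mem_sup.2 ⟨_, ⟨a, rfl⟩, _, ha, add_sub_cancel _ _⟩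
  obtain ⟨_, ⟨a, rfl⟩, c, hc, rfl⟩ :=
    Submodule.mem_sup.1 (approx m _ h1 n (Submodule.mem_top (x := b)))
  rw [Ideal.smul_top_eq_map, Ideal.map_pow] at hc
  exact ⟨a, by simpa using hc⟩

theorem precomplete_of_finite {R M : Type*} [CommRing R] (I : Ideal R) [AddCommGroup M]
    [Module R M] [Module.Finite R M] [IsPrecomplete I R] : IsPrecomplete I M := by
  refine AdicCompletion.of_surjective_iff.1 fun y => ?_
  obtain ⟨z, rfl⟩ := AdicCompletion.ofTensorProduct_surjective_of_finite I M y
  induction z with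
  | zero => exact ⟨0, by simp⟩
  | tmul r x =>
    obtain ⟨r, rfl⟩ := AdicCompletion.of_surjective I R r
    refine ⟨r • x, ?_⟩
    rw [AdicCompletion.ofTensorProduct_tmul, map_smul]
    exact (algebraMap_smul (AdicCompletion I R) r _).symm
  | add x y hx hy =>
    obtain ⟨x', hx⟩ := hx
    obtain ⟨y', hy⟩ := hy
    exact ⟨x' + y', by rw [map_add, map_add, hx, hy]⟩

theorem comap_pow {A T : Type*} [CommRing A] [CommRing T] [IsLocalRing T]
    [Algebra A T] [Module.Flat A T] (p : Ideal A) [p.IsMaximal]
    (h1 : (maximalIdeal T).comap (algebraMap A T) = p)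
    (h2 : p.map (algebraMap A T) = maximalIdeal T) (n : ℕ) :
    (maximalIdeal T ^ n).comap (algebraMap A T) = p ^ n := by
  have hu : ∀ y : p.primeCompl, IsUnit (algebraMap A T y) := fun y => by
    by_contra hy
    exact y.2 (h1 ▸ (mem_maximalIdeal _).2 hy)
  let _ : Algebra (Localization.AtPrime p) T := (IsLocalization.lift hu).toAlgebra
  have : IsScalarTower A (Localization.AtPrime p) T :=
    IsScalarTower.of_algebraMap_eq fun a => (IsLocalization.lift_eq hu a).symm
  have : Module.Flat (Localization.AtPrime p) T :=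
    (Module.flat_iff_of_isLocalization (Localization.AtPrime p) p.primeCompl T).2 inferInstance
  have h : (maximalIdeal (Localization.AtPrime p)).map (algebraMap _ T) = maximalIdeal T := by
    rw [← Localization.AtPrime.map_eq_maximalIdeal, Ideal.map_map, ← IsScalarTower.algebraMap_eq,
      h2]
  have := localHom h
  have : Module.FaithfullyFlat (Localization.AtPrime p) T :=
    Module.FaithfullyFlat.of_flat_of_isLocalHom
  rw [← h, ← Ideal.map_pow, IsScalarTower.algebraMap_eq A (Localization.AtPrime p) T,
    ← Ideal.comap_comap, Ideal.comap_map_eq_self_of_faithfullyFlat]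
  exact IsLocalization.AtPrime.under_maximalIdeal_pow p _ n

theorem mem_span_X {n : ℕ} {R : Type*} [CommRing R] (f : MvPowerSeries (Fin n) R)
    (hf : MvPowerSeries.constantCoeff f = 0) :
    f ∈ Ideal.span (Set.range (MvPowerSeries.X : Fin n → MvPowerSeries (Fin n) R)) := by
  classical
  let g : Fin n → MvPowerSeries (Fin n) R := fun i d =>
    if ∀ j < i, d j = 0 then MvPowerSeries.coeff (d + Finsupp.single i 1) f else 0
  have hg : ∀ i d, MvPowerSeries.coeff d (MvPowerSeries.X i * g i) =
      if d i ≠ 0 ∧ ∀ j < i, d j = 0 then MvPowerSeries.coeff d f else 0 := fun i d => by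
    rw [MvPowerSeries.X_def, MvPowerSeries.coeff_monomial_mul, one_mul]
    by_cases hi : d i = 0
    · simp [hi]
    have h1 : Finsupp.single i 1 ≤ d := Finsupp.single_le_iff.2 (Nat.one_le_iff_ne_zero.2 hi)
    rw [if_pos h1, MvPowerSeries.coeff_apply]
    simp only [g, tsub_add_cancel_of_le h1]
    refine if_congr ⟨fun h => ⟨hi, fun j hj => ?_⟩, fun h j hj => ?_⟩ rfl rfl
    · simpa [Finsupp.single_apply, hj.ne'] using h j hj
    · simp [h.2 j hj]
  have h : f = ∑ i, MvPowerSeries.X i * g i := by
    ext d
    simp only [map_sum, hg]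
    by_cases hd : d = 0
    · simp [hd, hf]
    have hne : d.support.Nonempty := Finsupp.support_nonempty_iff.2 hd
    have h1 := Finsupp.mem_support_iff.1 (d.support.min'_mem hne)
    have h2 : ∀ j < d.support.min' hne, d j = 0 := fun j hj => by
      by_contra h
      exact hj.not_ge (d.support.min'_le j (Finsupp.mem_support_iff.2 h))
    rw [Finset.sum_eq_single (d.support.min' hne) (fun j _ hj => if_neg fun h => ?_) (by simp),
      if_pos ⟨h1, h2⟩]
    exact (lt_or_gt_of_ne hj).elim (fun h' => h.1 (h2 j h')) fun h' => h1 (h.2 _ h')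
  rw [h]
  exact Ideal.sum_mem _ fun i _ => Ideal.mul_mem_right _ _ (Ideal.subset_span ⟨i, rfl⟩)

theorem alg_coe {n : ℕ} {k : Type*} [Field k] (p : MvPolynomial (Fin n) k) :
    algebraMap (MvPolynomial (Fin n) k) (MvPowerSeries (Fin n) k) p = p := rfl

theorem flat_ps (n : ℕ) (k : Type*) [Field k] :
    Module.Flat (MvPolynomial (Fin n) k) (MvPowerSeries (Fin n) k) :=
  Module.Flat.of_linearEquiv (MvPowerSeries.toAdicCompletionAlgEquiv (Fin n) k).toLinearEquiv

/-- Base change of a finite extension of domains in characteristic zero along a flat domain. -/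
theorem reduced_tensor (S S' A : Type*) [CommRing S] [CommRing S'] [CommRing A] [IsDomain S]
    [IsDomain S'] [IsDomain A] [CharZero S] [Algebra S S'] [Algebra S A] [Module.Flat S S']
    [Module.Finite S A] [FaithfulSMul S A] : IsReduced (S' ⊗[S] A) := by
  let F := FractionRing S
  let K := FractionRing A
  let L := FractionRing S'
  let _ : Algebra F K := FractionRing.liftAlgebra S K
  have : Algebra.IsSeparable F K := inferInstance
  have : Algebra.FormallyUnramified F K := Algebra.FormallyUnramified.of_isSeparable F K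
  have : Algebra.FormallyUnramified S F := Algebra.FormallyUnramified.of_isLocalization
    (nonZeroDivisors S)
  have : Algebra.FormallyUnramified S K := Algebra.FormallyUnramified.comp S F K
  have : Algebra.EssFiniteType S K := Algebra.EssFiniteType.comp S A K
  have : IsReduced (L ⊗[S] K) := Algebra.FormallyUnramified.isReduced_of_field L _
  have : Module.Flat S F := IsLocalization.flat F (nonZeroDivisors S)
  have : Module.Flat S K := Module.Flat.trans S F K
  refine isReduced_of_injective (Algebra.TensorProduct.map (IsScalarTower.toAlgHom S S' L)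
    (IsScalarTower.toAlgHom S A K)) ?_
  exact TensorProduct.map_injective_of_flat_flat' _ _ (IsFractionRing.injective S' L)
    (IsFractionRing.injective A K)

/-- A derivation of `T` that kills `A` vanishes if `T = A + m T`. -/
theorem der_uniq {k A T : Type*} [Field k] [CommRing A] [CommRing T] [Algebra k T] [Algebra A T]
    [IsLocalRing T] [IsNoetherianRing T] (m : Ideal A)
    (h2 : m.map (algebraMap A T) = maximalIdeal T)
    (h3 : ∀ t : T, ∃ a : A, t - algebraMap A T a ∈ maximalIdeal T) (E : Derivation k T T)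
    (hE : ∀ a, E (algebraMap A T a) = 0) : E = 0 := by
  let J : Ideal T := Ideal.span (Set.range E)
  have h1 : ∀ x ∈ m.map (algebraMap A T), ∀ t, E (t * x) ∈ maximalIdeal T • J := by
    intro x hx
    induction hx using Submodule.span_induction with
    | mem x hx =>
      obtain ⟨a, ha, rfl⟩ := hx
      intro t
      rw [E.leibniz, hE, smul_zero, zero_add]
      exact Submodule.smul_mem_smul (h2 ▸ Ideal.mem_map_of_mem _ ha) (Ideal.subset_span ⟨t, rfl⟩)
    | zero => simp
    | add x y _ _ hx hy =>
      intro t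
      rw [mul_add, map_add]
      exact add_mem (hx t) (hy t)
    | smul c x _ hx =>
      intro t
      rw [smul_eq_mul c x, ← mul_assoc]
      exact hx _
  have hJ : J = ⊥ := by
    refine Submodule.eq_bot_of_le_smul_of_le_jacobson_bot (maximalIdeal T) J
      (IsNoetherian.noetherian _) (Ideal.span_le.2 ?_) (maximalIdeal_le_jacobson _)
    rintro _ ⟨t, rfl⟩
    obtain ⟨a, ha⟩ := h3 t
    have h4 := h1 _ (h2 ▸ ha) 1
    rwa [one_mul, map_sub, hE, sub_zero] at h4
  exact Derivation.ext fun t => (Ideal.span_eq_bot.1 hJ) _ ⟨t, rfl⟩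

open MvPowerSeries in
theorem reduced_of {k A T : Type*} [Field k] [CharZero k] [CommRing A] [IsDomain A] [CommRing T]
    [IsLocalRing T] [IsNoetherianRing T] [Algebra A T] [Module.Flat A T] {s : ℕ}
    [Algebra (MvPolynomial (Fin s) k) A] [Module.Finite (MvPolynomial (Fin s) k) A]
    [FaithfulSMul (MvPolynomial (Fin s) k) A] [Algebra (MvPowerSeries (Fin s) k) T]
    [Algebra (MvPolynomial (Fin s) k) T] [IsScalarTower (MvPolynomial (Fin s) k) A T]
    [IsScalarTower (MvPolynomial (Fin s) k) (MvPowerSeries (Fin s) k) T]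
    (m : Ideal A) [m.IsMaximal] (h1 : (maximalIdeal T).comap (algebraMap A T) = m)
    (h2 : m.map (algebraMap A T) = maximalIdeal T)
    (h3 : ∀ t : T, ∃ a : A, t - algebraMap A T a ∈ maximalIdeal T)
    (h4 : ∀ i, algebraMap (MvPolynomial (Fin s) k) A (MvPolynomial.X i) ∈ m) : IsReduced T := by
  set S := MvPolynomial (Fin s) k
  set P := MvPowerSeries (Fin s) k
  have := flat_ps s k
  have hX : ∀ i, algebraMap S P (MvPolynomial.X i) = X i := fun i => MvPolynomial.coe_X i
  let B := P ⊗[S] A
  have : IsDomain P := NoZeroDivisors.to_isDomain _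
  have : IsReduced B := reduced_tensor S P A
  have : IsNoetherianRing B := Algebra.FiniteType.isNoetherianRing P B
  let _ : Algebra A B := Algebra.TensorProduct.rightAlgebra
  let φ : B →ₐ[P] T := Algebra.TensorProduct.lift (Algebra.ofId P T)
    (IsScalarTower.toAlgHom S A T) fun _ _ => Commute.all _ _
  have hφ : ∀ a, φ (algebraMap A B a) = algebraMap A T a := fun a =>
    (Algebra.TensorProduct.lift_tmul _ _ _ 1 a).trans (by simp)
  have hφm : (m.map (algebraMap A B)).map φ = maximalIdeal T := by
    rw [← h2]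
    exact (Ideal.map_map (algebraMap A B) (φ : B →+* T)).trans
      (congrArg (Ideal.map · m) (RingHom.ext hφ))
  let I : Ideal P := Ideal.span (Set.range X)
  -- `φ` is onto
  have hIT : I.map (algebraMap P T) ≤ maximalIdeal T := by
    rw [Ideal.map_le_iff_le_comap, Ideal.span_le]
    rintro _ ⟨i, rfl⟩
    rw [SetLike.mem_coe, Ideal.mem_comap, ← hX, ← IsScalarTower.algebraMap_apply,
      IsScalarTower.algebraMap_apply S A T, ← Ideal.mem_comap, h1]
    exact h4 i
  have hrad : maximalIdeal T ≤ (I.map (algebraMap P T)).radical := by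
    rw [Ideal.radical_eq_sInf]
    refine le_sInf fun Q hQ => ?_
    have := hQ.2
    have h6 : ((Q.comap (algebraMap A T)).comap (algebraMap S A)).IsMaximal := by
      have h7 : RingHom.ker (MvPolynomial.constantCoeff : S →+* k) ≤
          (Q.comap (algebraMap A T)).comap (algebraMap S A) := fun p hp => by
        rw [Ideal.comap_comap, ← IsScalarTower.algebraMap_eq, Ideal.mem_comap,
          IsScalarTower.algebraMap_apply S P T]
        exact Ideal.map_le_iff_le_comap.1 hQ.1 (mem_span_X _ hp)
      have h8 : (RingHom.ker (MvPolynomial.constantCoeff : S →+* k)).IsMaximal :=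
        RingHom.ker_isMaximal_of_surjective _ fun c => ⟨MvPolynomial.C c, by simp⟩
      exact (h8.eq_of_le (Ideal.IsPrime.ne_top inferInstance) h7) ▸ h8
    have h7 := Ideal.isMaximal_of_isIntegral_of_isMaximal_comap _ h6
    have h8 := h7.eq_of_le (Ideal.IsMaximal.ne_top ‹m.IsMaximal›)
      (h1 ▸ Ideal.comap_mono (le_maximalIdeal this.ne_top))
    rw [← h2, Ideal.map_le_iff_le_comap, h8]
  obtain ⟨n, hn⟩ := Ideal.exists_pow_le_of_le_radical_of_fg hrad (IsNoetherian.noetherian _)
  have hsurj : Function.Surjective φ := by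
    have : IsPrecomplete I B := precomplete_of_finite I
    have : IsHausdorff I T := IsHausdorff.map_algebraMap_iff.1
      (IsHausdorff.of_isLocalRing _ _ (ne_top_of_le_ne_top (maximalIdeal.isMaximal T).ne_top hIT))
    refine surjective_of_mkQ_comp_surjective (I := I) (f := φ.toLinearMap) fun y => ?_
    obtain ⟨t, rfl⟩ := Submodule.mkQ_surjective _ y
    obtain ⟨a, ha⟩ := approx' m (h2 ▸ h3) n t
    refine ⟨algebraMap A B a, ((Submodule.Quotient.eq _).2 ?_).symm⟩
    rw [Ideal.smul_top_eq_map, AlgHom.toLinearMap_apply, hφ]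
    exact hn (h2 ▸ ha)
  -- the kernel
  have hB : ∀ b : B, ∃ a : A, b - algebraMap A B a ∈ m.map (algebraMap A B) := by
    intro b
    induction b using TensorProduct.induction_on with
    | zero => exact ⟨0, by simp⟩
    | tmul f a =>
      refine ⟨algebraMap S A (MvPolynomial.C (constantCoeff f)) * a, ?_⟩
      have h5 : I ≤ (m.map (algebraMap A B)).comap (algebraMap P B) := by
        rw [Ideal.span_le]
        rintro _ ⟨i, rfl⟩
        rw [SetLike.mem_coe, Ideal.mem_comap, ← hX, ← IsScalarTower.algebraMap_apply,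
          IsScalarTower.algebraMap_apply S A B]
        exact Ideal.mem_map_of_mem _ (h4 i)
      have h6 := Ideal.mul_mem_right (algebraMap A B a) _ (Ideal.mem_comap.1
        (h5 (mem_span_X (f - algebraMap S P (MvPolynomial.C (constantCoeff f))) (by simp [S, P, alg_coe]))))
      rw [map_sub, sub_mul, ← IsScalarTower.algebraMap_apply,
        IsScalarTower.algebraMap_apply S A B, ← map_mul] at h6
      convert h6 using 2
      exact (show (f ⊗ₜ[S] 1 : B) * 1 ⊗ₜ[S] a = _ by
        rw [Algebra.TensorProduct.tmul_mul_tmul, mul_one, one_mul]).symm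
    | add x y hx hy =>
      obtain ⟨a, ha⟩ := hx
      obtain ⟨b, hb⟩ := hy
      exact ⟨a + b, by simpa [add_sub_add_comm] using add_mem ha hb⟩
  refine ⟨fun t ⟨j, hj⟩ => ?_⟩
  obtain ⟨b, rfl⟩ := hsurj t
  have h5 : b ^ j ∈ (⨅ i : ℕ, m.map (algebraMap A B) ^ i • ⊤ : Submodule B B) := by
    refine Submodule.mem_iInf _ |>.2 fun i => ?_
    obtain ⟨a, ha⟩ := approx' m hB i (b ^ j)
    have h6 := Ideal.mem_map_of_mem φ ha
    rw [Ideal.map_pow, hφm, map_sub, map_pow, hj, hφ, zero_sub, neg_mem_iff, ← Ideal.mem_comap,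
      comap_pow m h1 h2] at h6
    have h7 := add_mem ha (Ideal.map_pow (algebraMap A B) m i ▸ Ideal.mem_map_of_mem _ h6)
    simpa using h7
  obtain ⟨r, hr⟩ := (Ideal.mem_iInf_smul_pow_eq_bot_iff _ _).1 h5
  have hu : IsUnit (φ (1 - r)) := by
    rw [map_sub, map_one]
    exact isUnit_one_sub_self_of_mem_nonunits _ (hφm.le (Ideal.mem_map_of_mem φ r.2))
  have h6 : (1 - r) * b = 0 := by
    refine IsNilpotent.eq_zero ⟨j + 1, ?_⟩
    rw [smul_eq_mul] at hr
    rw [mul_pow]
    linear_combination -(1 - r) ^ j * b * hr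
  exact hu.mul_right_eq_zero.1 (by rw [← map_mul, h6, map_zero])

end Vale.Agent.N266
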