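import Vale.Agent.N266.Germ

/-! P266: the singular points of a normal affine surface form a finite set of closed points. -/

namespace Vale.Agent.N266

open IsLocalRing Vale.Agent.P266 Polynomial TensorProduct

theorem reg_of_smoothAt {k A : Type*} [Field k] [CommRing A] [Algebra k A] [Algebra.FiniteType k A]
    (p : Ideal A) [p.IsPrime] [Algebra.IsSmoothAt k p] :
    IsRegularLocalRing (Localization.AtPrime p) := by
  have : IsNoetherianRing A := Algebra.FiniteType.isNoetherianRing k A
  have : Algebra.FinitePresentation k A := Algebra.FinitePresentation.of_finiteType.1 ‹_›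
  obtain ⟨f, hf, n, _, _, _⟩ := Algebra.IsSmoothAt.exists_isStandardEtale_mvPolynomial (R := k)
    (p := p)
  have hd := (Ideal.disjoint_powers_iff_notMem_of_isPrime _).2 hf
  let q := p.map (algebraMap A (Localization.Away f))
  have : q.IsPrime := IsLocalization.isPrime_of_isPrime_disjoint (.powers f) _ _ ‹_› hd
  have : q.LiesOver p := ⟨(IsLocalization.under_map_of_isPrime_disjoint (.powers f) _ ‹_› hd).symm⟩
  exact (reg_etale p q).1.1 ((reg_etale (q.under (MvPolynomial (Fin n) k)) q).1.2 inferInstance)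

variable {A : Type} [CommRing A] [IsDomain A] [IsIntegrallyClosed A]

omit [IsDomain A] [IsIntegrallyClosed A] in
theorem height_le_one (hd : ringKrullDim A ≤ 2) (p : Ideal A) [hp : p.IsPrime]
    (h : ¬ p.IsMaximal) : (p.height : WithBot ℕ∞) ≤ 1 := by
  obtain ⟨m, hm, hpm⟩ := p.exists_le_maximal hp.ne_top
  have h1 := Ideal.height_add_one_le_of_lt_of_isPrime
    (lt_of_le_of_ne hpm fun e => h (e ▸ hm))
  have h2 : m.height ≤ 2 :=
    WithBot.coe_le_coe.1 ((Ideal.height_le_ringKrullDim_of_isPrime (I := m)).trans hd)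
  have h3 : p.height + 1 ≤ 1 + 1 := h1.trans (h2.trans_eq one_add_one_eq_two.symm)
  exact_mod_cast (ENat.add_le_add_iff_right ENat.one_ne_top).1 h3

theorem two_le_height [IsNoetherianRing A] (p : Ideal A) [p.IsPrime]
    (h : ¬ IsRegularLocalRing (Localization.AtPrime p)) : (2 : WithBot ℕ∞) ≤ p.height := by
  have : IsIntegrallyClosed (Localization.AtPrime p) :=
    isIntegrallyClosed_of_isLocalization _ p.primeCompl p.primeCompl_le_nonZeroDivisors
  rw [← IsLocalization.AtPrime.ringKrullDim_eq_height p (Localization.AtPrime p)]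
  exact CE.two_le_ringKrullDim _ fun _ => h (.of_isRegularRing_of_isLocalRing _)

theorem max_of_sing [IsNoetherianRing A] (hd : ringKrullDim A ≤ 2) (p : Ideal A) [p.IsPrime]
    (h : ¬ IsRegularLocalRing (Localization.AtPrime p)) : p.IsMaximal := by
  by_contra hp
  exact absurd ((two_le_height p h).trans (height_le_one hd p hp)) (by decide)

variable [Algebra ℂ A] [Algebra.FiniteType ℂ A]

theorem smoothAt_of_not_max (hd : ringKrullDim A ≤ 2) (p : Ideal A) [hp : p.IsPrime]
    (h : ¬ p.IsMaximal) : Algebra.IsSmoothAt ℂ p := by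
  obtain ⟨u, hu⟩ : ∃ u : A, ∀ g : ℂ[X], g ≠ 0 → aeval u g ∉ p := by
    by_contra hc
    have : Algebra.IsAlgebraic ℂ (A ⧸ p) := ⟨fun x => by
      obtain ⟨u, rfl⟩ := Ideal.Quotient.mkₐ_surjective ℂ p x
      by_contra hx
      refine hc ⟨u, fun g hg hgp => hx ⟨g, hg, ?_⟩⟩
      rw [aeval_algHom_apply]
      exact Ideal.Quotient.eq_zero_iff_mem.2 hgp⟩
    exact h (Ideal.Quotient.maximal_of_isField p
      (isField_of_isIntegral_of_isField' (Field.toIsField ℂ)))
  let _ : Algebra ℂ[X] A := (aeval u : ℂ[X] →ₐ[ℂ] A).toAlgebra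
  have : IsScalarTower ℂ ℂ[X] A := IsScalarTower.of_algebraMap_eq fun c =>
    ((aeval u : ℂ[X] →ₐ[ℂ] A).commutes c).symm
  have : Algebra.FiniteType ℂ[X] A := Algebra.FiniteType.of_restrictScalars_finiteType ℂ _ _
  let K := FractionRing ℂ[X]
  let B := K ⊗[ℂ[X]] A
  let _ : Algebra A B := Algebra.TensorProduct.rightAlgebra
  let M := Algebra.algebraMapSubmonoid A (nonZeroDivisors ℂ[X])
  have : IsLocalization M B := IsLocalization.tensorRight K _
  have hM : M ≤ p.primeCompl := by
    rintro _ ⟨g, hg, rfl⟩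
    exact hu g (nonZeroDivisors.ne_zero hg)
  have hM0 := hM.trans p.primeCompl_le_nonZeroDivisors
  have : IsDomain B := IsLocalization.isDomain_of_le_nonZeroDivisors B hM0
  have : IsIntegrallyClosed B := isIntegrallyClosed_of_isLocalization B M hM0
  have hB : ringKrullDim B ≤ 1 := by
    refine (ringKrullDim_le_iff_height_le _).2 fun Q hQ => ?_
    rw [← IsLocalization.height_under M Q]
    refine height_le_one hd _ fun hm => ?_
    obtain ⟨c, hc⟩ := exists_point (Q.under A) u
    refine hQ.ne_top (Ideal.eq_top_of_isUnit_mem _ hc (IsLocalization.map_units B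
      (⟨_, X - C c, mem_nonZeroDivisors_of_ne_zero (X_sub_C_ne_zero c), ?_⟩ : M)))
    simp [RingHom.algebraMap_toAlgebra]
  have : Algebra.Smooth K B := H114.Lip.smooth_of_dim_le_one K hB
  have : Algebra.FormallySmooth ℂ[X] K :=
    Algebra.FormallySmooth.of_isLocalization (nonZeroDivisors ℂ[X])
  have : Algebra.FormallySmooth ℂ[X] B := Algebra.FormallySmooth.comp ℂ[X] K B
  let _ := IsLocalization.localizationAlgebraOfSubmonoidLe B (Localization.AtPrime p) M _ hM
  have := IsLocalization.localization_isScalarTower_of_submonoid_le B (Localization.AtPrime p) M _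
    hM
  have := IsLocalization.isLocalization_of_submonoid_le B (Localization.AtPrime p) M _ hM
  have : Algebra.FormallySmooth B (Localization.AtPrime p) :=
    Algebra.FormallySmooth.of_isLocalization (p.primeCompl.map (algebraMap A B))
  have : IsScalarTower ℂ[X] B (Localization.AtPrime p) := IsScalarTower.to₁₃₄ ℂ[X] A B _
  have : Algebra.FormallySmooth ℂ[X] (Localization.AtPrime p) :=
    Algebra.FormallySmooth.comp ℂ[X] B _
  exact Algebra.FormallySmooth.comp ℂ ℂ[X] _

theorem finite_sing (hd : ringKrullDim A ≤ 2) :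
    {p : PrimeSpectrum A | ¬ IsRegularLocalRing (Localization.AtPrime p.asIdeal)}.Finite := by
  have : IsNoetherianRing A := Algebra.FiniteType.isNoetherianRing ℂ A
  have : Algebra.FinitePresentation ℂ A := Algebra.FinitePresentation.of_finiteType.1 ‹_›
  obtain ⟨J, hJ⟩ := (PrimeSpectrum.isClosed_iff_zeroLocus_ideal _).1
    (Algebra.isOpen_smoothLocus (R := ℂ) (A := A)).isClosed_compl
  refine ((J.finite_minimalPrimes_of_isNoetherianRing).preimage
    (f := PrimeSpectrum.asIdeal) fun _ _ _ _ => PrimeSpectrum.ext).subset fun p hp => ?_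
  have h1 : p ∈ PrimeSpectrum.zeroLocus (J : Set A) := hJ ▸ fun h => hp (by
    have : Algebra.IsSmoothAt ℂ p.asIdeal := h
    exact reg_of_smoothAt (k := ℂ) _)
  obtain ⟨q, hq, hqp⟩ := Ideal.exists_minimalPrimes_le (I := J) (J := p.asIdeal) h1
  have := hq.1.1
  have h2 : q.IsMaximal := by
    by_contra h
    exact (hJ.ge (show (⟨q, this⟩ : PrimeSpectrum A) ∈ PrimeSpectrum.zeroLocus (J : Set A) from
      hq.1.2)) (smoothAt_of_not_max hd q h)
  rwa [Set.mem_preimage, ← h2.eq_of_le p.2.ne_top hqp]

end Vale.Agent.N266
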